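import Vale.Agent.P207.N4.Dim
import Vale.Agent.P207.C1.Hinge
import Vale.Agent.P207.N4.H465.HadI

/-!
# P207, line N3, R5': closed manifolds of negative curvature satisfy the hinge comparison, and
their universal covers are spaces of curvature `≤ -k²` in the sense of `Had`
-/

open scoped Manifold ContDiff ENNReal Topology unitInterval
open Bundle MeasureTheory Set Filter

noncomputable section

namespace Vale.Agent.P207.N4.H156

open Vale.Agent.P207.N3 Vale.Agent.P207.N3.H156

variable [Dim]

open Vale.Agent.P207 Vale.Agent.P207.C1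
open Vale.Agent.P255 (RMetric coefIn Gam Riem IsGeo Metric Npc ExpSys toMetric geo expg cc)

variable {n : ℕ} {M : Type} [TopologicalSpace M] [ChartedSpace (EV n) M]
  [IsManifold 𝓘(ℝ, EV n) ∞ M] [CompactSpace M] [T2Space M]

/-- **R5'.** The hinge comparison with a positive constant. -/
theorem exists_HC {g : RMetric (EV n) M} (h : NegCurvature g) :
    ∃ k : ℝ, 0 < k ∧ HC (sys g (npc_of_neg h)) k := by
  obtain ⟨k, hk, hg⟩ := exists_curvLE_of_neg h
  exact ⟨k, hk, fun α β hα hβ => hinge_cl hk hg α β hα hβ⟩

/-- the constant of the comparison -/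
def kk {g : RMetric (EV n) M} (h : NegCurvature g) : ℝ := (exists_HC h).choose

theorem kk_pos {g : RMetric (EV n) M} (h : NegCurvature g) : 0 < kk h :=
  (exists_HC h).choose_spec.1

theorem hc_kk {g : RMetric (EV n) M} (h : NegCurvature g) : HC (sys g (npc_of_neg h)) (kk h) :=
  (exists_HC h).choose_spec.2

/-- the universal cover of a closed manifold of negative curvature as a Hadamard space -/
def hadN {g : RMetric (EV n) M} (hn : 1 ≤ n) (h : NegCurvature g) (p : M) :
    H728.Had (H465.Mt (sys g (npc_of_neg h)) p) :=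
  haveI : Nonempty (Fin n) := ⟨⟨0, hn⟩⟩
  haveI : Nontrivial (EV n) := inferInstance
  H465.had (sys g (npc_of_neg h)) p (hc_kk h) (kk_pos h)

end Vale.Agent.P207.N4.H156
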